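import Vale.Agent.P183.Defs

/-! # P183: lattices with at most seven elements are coded by `codes` (tables generated) -/

namespace P183

/-- the codes of all lattices with `n ≤ 7` elements, up to isomorphism -/
def codes : ℕ → List (List (ℕ × ℕ))
  | 1 => [[]]
  | 2 => [[]]
  | 3 => [[]]
  | 4 => [[],
      [(1,2)]]
  | 5 => [[],
      [(1,2)],
      [(1,2), (1,3)],
      [(1,2), (3,2)],
      [(1,2), (1,3), (2,3)]]
  | 6 => [[],
      [(1,2)],
      [(1,2), (1,3)],
      [(1,2), (1,3), (1,4)],
      [(1,2), (3,2)],
      [(1,2), (1,3), (2,3)],
      [(1,2), (3,4)],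
      [(1,2), (1,3), (4,2)],
      [(1,2), (1,3), (1,4), (2,3)],
      [(1,2), (1,3), (1,4), (2,3), (2,4)],
      [(1,2), (3,2), (4,2)],
      [(1,2), (1,3), (2,3), (4,3)],
      [(1,2), (1,3), (1,4), (2,3), (4,3)],
      [(1,2), (1,3), (2,3), (4,2), (4,3)],
      [(1,2), (1,3), (1,4), (2,3), (2,4), (3,4)]]
  | 7 => [[],
      [(1,2)],
      [(1,2), (1,3)],
      [(1,2), (1,3), (1,4)],
      [(1,2), (1,3), (1,4), (1,5)],
      [(1,2), (3,2)],
      [(1,2), (1,3), (2,3)],
      [(1,2), (3,4)],
      [(1,2), (1,3), (4,2)],
      [(1,2), (1,3), (1,4), (2,3)],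
      [(1,2), (1,3), (4,5)],
      [(1,2), (1,3), (1,4), (5,2)],
      [(1,2), (1,3), (1,4), (1,5), (2,3)],
      [(1,2), (1,3), (1,4), (2,3), (2,4)],
      [(1,2), (1,3), (4,2), (4,5)],
      [(1,2), (1,3), (1,4), (1,5), (2,3), (2,4)],
      [(1,2), (1,3), (1,4), (1,5), (2,3), (2,4), (2,5)],
      [(1,2), (3,2), (4,2)],
      [(1,2), (1,3), (2,3), (4,3)],
      [(1,2), (1,3), (1,4), (2,3), (4,3)],
      [(1,2), (3,2), (4,5)],
      [(1,2), (1,3), (4,2), (5,2)],
      [(1,2), (1,3), (1,4), (2,3), (5,3)],
      [(1,2), (1,3), (1,4), (1,5), (2,3), (4,3)],
      [(1,2), (1,3), (2,3), (4,2), (4,3)],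
      [(1,2), (1,3), (1,4), (2,3), (2,4), (3,4)],
      [(1,2), (1,3), (2,3), (4,5)],
      [(1,2), (1,3), (2,3), (4,3), (4,5)],
      [(1,2), (1,3), (1,4), (2,3), (5,2), (5,3)],
      [(1,2), (1,3), (1,4), (1,5), (2,3), (2,4), (3,4)],
      [(1,2), (1,3), (4,2), (5,3)],
      [(1,2), (1,3), (1,4), (2,3), (5,4)],
      [(1,2), (1,3), (1,4), (1,5), (2,3), (4,5)],
      [(1,2), (1,3), (1,4), (2,3), (2,4), (5,3)],
      [(1,2), (1,3), (1,4), (1,5), (2,3), (2,4), (5,3)],
      [(1,2), (1,3), (1,4), (1,5), (2,3), (2,4), (2,5), (3,4)],
      [(1,2), (1,3), (1,4), (2,3), (2,4), (5,2), (5,3), (5,4)],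
      [(1,2), (1,3), (1,4), (1,5), (2,3), (2,4), (2,5), (3,4), (3,5)],
      [(1,2), (3,2), (4,2), (5,2)],
      [(1,2), (1,3), (2,3), (4,3), (5,3)],
      [(1,2), (1,3), (1,4), (2,3), (4,3), (5,3)],
      [(1,2), (1,3), (1,4), (1,5), (2,3), (4,3), (5,3)],
      [(1,2), (1,3), (2,3), (4,2), (4,3), (5,3)],
      [(1,2), (1,3), (1,4), (2,3), (2,4), (3,4), (5,4)],
      [(1,2), (1,3), (2,3), (4,3), (4,5), (5,3)],
      [(1,2), (1,3), (1,4), (2,3), (4,3), (5,2), (5,3)],
      [(1,2), (1,3), (1,4), (1,5), (2,3), (2,4), (3,4), (5,4)],
      [(1,2), (1,3), (1,4), (1,5), (2,3), (2,4), (2,5), (3,4), (5,4)],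
      [(1,2), (1,3), (2,3), (4,2), (4,3), (5,2), (5,3)],
      [(1,2), (1,3), (1,4), (2,3), (2,4), (3,4), (5,3), (5,4)],
      [(1,2), (1,3), (1,4), (1,5), (2,3), (2,4), (3,4), (5,3), (5,4)],
      [(1,2), (1,3), (1,4), (2,3), (2,4), (3,4), (5,2), (5,3), (5,4)],
      [(1,2), (1,3), (1,4), (1,5), (2,3), (2,4), (2,5), (3,4), (3,5), (4,5)]]
  | _ => []

namespace Cls

/-- for every mask of a lattice: (mask, index of its code, packed permutation) -/
def table : ℕ → List (ℕ × ℕ × ℕ)
  | 1 => [(0,0,0)]
  | 2 => [(0,0,8)]
  | 3 => [(0,0,136)]
  | 4 => [(0,0,1672),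
      (1,1,1672)]
  | 5 => [(0,0,18056),
      (1,1,18056),
      (2,1,17608),
      (3,2,18056),
      (4,1,17496),
      (6,3,17608),
      (7,4,18056)]
  | 6 => [(0,0,181896),
      (1,1,181896),
      (2,1,181448),
      (3,2,181896),
      (4,1,181336),
      (6,4,181448),
      (7,5,181896),
      (8,1,174280),
      (9,2,178312),
      (10,2,177416),
      (11,3,181896),
      (12,6,174280),
      (14,7,177416),
      (15,8,181896),
      (16,1,174168),
      (18,6,181448),
      (20,2,177248),
      (22,7,177248),
      (24,4,174280),
      (25,5,178312),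
      (26,7,173832),
      (27,8,178312),
      (28,7,173664),
      (31,9,181896),
      (32,1,172824),
      (33,6,181896),
      (40,4,173832),
      (41,7,174280),
      (42,5,177416),
      (43,8,177416),
      (48,4,173664),
      (52,5,177248),
      (56,10,174280),
      (57,11,178312),
      (58,11,177416),
      (59,12,178312),
      (60,11,177248),
      (62,13,177416),
      (63,14,181896)]
  | 7 => [(0,0,1754760),
      (1,1,1754760),
      (2,1,1754312),
      (3,2,1754760),
      (4,1,1754200),
      (6,5,1754312),
      (7,6,1754760),
      (8,1,1747144),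
      (9,2,1751176),
      (10,2,1750280),
      (11,3,1754760),
      (12,7,1747144),
      (14,8,1750280),
      (15,9,1754760),
      (16,1,1747032),
      (18,7,1754312),
      (20,2,1750112),
      (22,8,1750112),
      (24,5,1747144),
      (25,6,1751176),
      (26,8,1746696),
      (27,9,1751176),
      (28,8,1746528),
      (31,13,1754760),
      (32,1,1745688),
      (33,7,1754760),
      (40,5,1746696),
      (41,8,1747144),
      (42,6,1750280),
      (43,9,1750280),
      (48,5,1746528),
      (52,6,1750112),
      (56,17,1747144),
      (57,18,1751176),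
      (58,18,1750280),
      (59,19,1751176),
      (60,18,1750112),
      (62,24,1750280),
      (63,25,1754760),
      (64,1,1661128),
      (65,2,1693832),
      (66,2,1692936),
      (67,3,1726088),
      (68,7,1661128),
      (70,8,1692936),
      (71,9,1726088),
      (72,2,1682184),
      (73,3,1718920),
      (74,3,1717576),
      (75,4,1754760),
      (76,10,1682184),
      (78,11,1717576),
      (79,12,1754760),
      (80,7,1657544),
      (82,10,1692936),
      (84,10,1750112),
      (86,14,1692936),
      (88,8,1682184),
      (89,9,1718920),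
      (90,11,1713992),
      (91,12,1751176),
      (92,14,1682184),
      (95,15,1754760),
      (96,7,1656648),
      (97,10,1693832),
      (104,8,1681736),
      (105,11,1714888),
      (106,9,1717576),
      (107,12,1750280),
      (112,20,1746528),
      (116,26,1750112),
      (120,21,1682184),
      (121,22,1718920),
      (122,22,1717576),
      (123,23,1751176),
      (124,27,1750112),
      (126,28,1717576),
      (127,29,1754760),
      (128,1,1661016),
      (130,7,1725640),
      (132,2,1692768),
      (134,8,1692768),
      (136,7,1714888),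
      (138,10,1750280),
      (140,10,1692768),
      (142,14,1750280),
      (144,2,1682016),
      (146,10,1682016),
      (148,3,1717352),
      (150,11,1717352),
      (152,8,1682016),
      (154,14,1746696),
      (156,11,1713768),
      (160,7,1656424),
      (168,20,1746696),
      (170,26,1750280),
      (176,8,1681512),
      (180,9,1717352),
      (184,21,1682016),
      (186,27,1750280),
      (188,22,1717352),
      (190,28,1717352),
      (192,5,1661128),
      (193,6,1693832),
      (194,8,1660680),
      (195,9,1693832),
      (196,8,1660512),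
      (199,13,1726088),
      (200,8,1653512),
      (201,9,1690248),
      (202,11,1656648),
      (203,12,1693832),
      (204,14,1653512),
      (207,15,1726088),
      (208,8,1653344),
      (210,14,1660680),
      (212,11,1656424),
      (217,13,1718920),
      (219,15,1718920),
      (223,16,1754760),
      (224,20,1661128),
      (225,26,1693832),
      (232,30,1653512),
      (233,31,1690248),
      (234,31,1717576),
      (235,32,1693832),
      (240,30,1653344),
      (244,31,1717352),
      (249,33,1718920),
      (251,34,1718920),
      (255,35,1754760),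
      (256,1,1659672),
      (257,7,1726088),
      (264,7,1713992),
      (265,10,1751176),
      (272,7,1713768),
      (280,20,1747144),
      (281,26,1751176),
      (288,2,1680224),
      (289,10,1680224),
      (296,8,1680224),
      (297,14,1747144),
      (304,8,1680168),
      (312,21,1680224),
      (313,27,1751176),
      (320,5,1660680),
      (321,8,1661128),
      (322,6,1692936),
      (323,9,1692936),
      (328,8,1653064),
      (329,11,1657544),
      (330,9,1688904),
      (331,12,1692936),
      (336,20,1660680),
      (338,26,1692936),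
      (344,30,1682184),
      (345,31,1718920),
      (346,31,1688904),
      (347,32,1751176),
      (352,8,1651552),
      (353,14,1661128),
      (362,13,1717576),
      (363,15,1717576),
      (368,30,1651552),
      (378,33,1717576),
      (379,34,1717576),
      (384,5,1660512),
      (388,6,1692768),
      (392,20,1660512),
      (396,26,1692768),
      (400,8,1652840),
      (404,9,1688680),
      (408,30,1682016),
      (412,31,1688680),
      (416,8,1651496),
      (424,30,1680224),
      (436,13,1717352),
      (444,33,1717352),
      (448,17,1661128),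
      (449,18,1693832),
      (450,18,1692936),
      (451,19,1693832),
      (452,18,1692768),
      (454,24,1692936),
      (455,25,1726088),
      (456,21,1653512),
      (457,22,1690248),
      (458,22,1688904),
      (459,23,1693832),
      (460,27,1692768),
      (462,28,1688904),
      (463,29,1726088),
      (464,21,1653344),
      (466,27,1692936),
      (468,22,1688680),
      (470,28,1688680),
      (473,33,1690248),
      (475,34,1690248),
      (479,35,1726088),
      (480,21,1651552),
      (481,27,1693832),
      (490,33,1688904),
      (491,34,1688904),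
      (500,33,1688680),
      (510,36,1717576),
      (511,37,1754760),
      (512,1,1645336),
      (513,7,1718920),
      (514,7,1717576),
      (515,10,1754760),
      (516,7,1717352),
      (518,20,1754312),
      (519,26,1754760),
      (576,5,1653512),
      (577,8,1657544),
      (578,8,1656648),
      (579,11,1661128),
      (580,20,1653512),
      (582,30,1692936),
      (583,31,1726088),
      (584,6,1682184),
      (585,9,1682184),
      (586,9,1681736),
      (587,12,1682184),
      (588,26,1682184),
      (590,31,1681736),
      (591,32,1754760),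
      (640,5,1653344),
      (642,20,1653344),
      (644,8,1656424),
      (646,30,1692768),
      (656,6,1682016),
      (658,26,1682016),
      (660,9,1681512),
      (662,31,1681512),
      (704,17,1657544),
      (705,18,1690248),
      (706,21,1660680),
      (707,22,1693832),
      (708,21,1660512),
      (711,33,1693832),
      (712,18,1682184),
      (713,19,1690248),
      (714,22,1681736),
      (715,23,1690248),
      (716,27,1682184),
      (719,34,1693832),
      (720,18,1682016),
      (722,27,1682016),
      (724,22,1681512),
      (728,24,1682184),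
      (729,25,1718920),
      (730,28,1681736),
      (731,29,1718920),
      (732,28,1681512),
      (735,35,1718920),
      (768,5,1651552),
      (769,20,1651552),
      (800,6,1680224),
      (801,26,1680224),
      (832,17,1656648),
      (833,21,1661128),
      (834,18,1688904),
      (835,22,1692936),
      (840,18,1681736),
      (841,22,1682184),
      (842,19,1688904),
      (843,23,1688904),
      (864,18,1680224),
      (865,27,1680224),
      (872,24,1681736),
      (873,28,1682184),
      (874,25,1717576),
      (875,29,1717576),
      (896,17,1656424),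
      (900,18,1688680),
      (912,18,1681512),
      (916,19,1688680),
      (928,18,1680168),
      (944,24,1681512),
      (948,25,1717352),
      (960,38,1661128),
      (961,39,1693832),
      (962,39,1692936),
      (963,40,1693832),
      (964,39,1692768),
      (966,42,1692936),
      (967,43,1726088),
      (968,39,1682184),
      (969,40,1690248),
      (970,40,1688904),
      (971,41,1693832),
      (972,44,1682184),
      (974,45,1688904),
      (975,46,1726088),
      (976,39,1682016),
      (978,44,1692936),
      (980,40,1688680),
      (982,45,1688680),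
      (984,42,1682184),
      (985,43,1718920),
      (986,45,1681736),
      (987,46,1718920),
      (988,45,1681512),
      (991,47,1726088),
      (992,39,1680224),
      (993,44,1693832),
      (1000,42,1681736),
      (1001,45,1682184),
      (1002,43,1717576),
      (1003,46,1717576),
      (1008,42,1681512),
      (1012,43,1717352),
      (1016,48,1682184),
      (1017,49,1718920),
      (1018,49,1717576),
      (1019,50,1718920),
      (1020,49,1717352),
      (1022,51,1717576),
      (1023,52,1754760)]
  | _ => []

/-- position of the pair `(i, j)`, `1 ≤ i < j` -/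
def ix (i j : ℕ) : ℕ := (j - 2) * (j - 1) / 2 + (i - 1)

/-- the relation coded by a mask -/
def leM (n m i j : ℕ) : Bool :=
  Nat.beq i j || (Nat.beq i 0 || (Nat.beq (j + 1) n || (Nat.blt i j && m.testBit (ix i j))))

/-- number of bits of a mask -/
def bits (n : ℕ) : ℕ := (n - 2) * (n - 3) / 2

def isTrans (n m : ℕ) : Bool :=
  (List.range n).all fun i => (List.range n).all fun j => (List.range n).all fun k =>
    !(leM n m i j && leM n m j k) || leM n m i k

def hasJoins (n m : ℕ) : Bool :=
  (List.range n).all fun i => (List.range n).all fun j => (List.range n).any fun k =>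
    (leM n m i k && leM n m j k) &&
      (List.range n).all fun l => !(leM n m i l && leM n m j l) || leM n m k l

def isLat (n m : ℕ) : Bool := isTrans n m && hasJoins n m

/-- entry `i` of a packed permutation -/
def pl (p i : ℕ) : ℕ := (p >>> (3 * i)) % 8

def leL (n : ℕ) (rel : List (ℕ × ℕ)) (i j : ℕ) : Bool :=
  Nat.beq i j || (Nat.beq i 0 || (Nat.beq (j + 1) n ||
    rel.any fun q => Nat.beq q.1 i && Nat.beq q.2 j))

def okPerm (n m : ℕ) (rel : List (ℕ × ℕ)) (p : ℕ) : Bool :=
  (List.range n).all fun i => Nat.blt (pl p i) n && (List.range n).all fun j =>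
    (Nat.beq i j || !Nat.beq (pl p i) (pl p j)) &&
      (cond (leM n m i j) (leL n rel (pl p i) (pl p j)) (!leL n rel (pl p i) (pl p j)))

def okEntry (n m : ℕ) (t : ℕ × ℕ × ℕ) : Bool :=
  Nat.beq t.1 m && okPerm n m ((codes n).getD t.2.1 []) t.2.2 && Nat.blt t.2.1 (codes n).length

def okOne (n m : ℕ) : Bool := !isLat n m || (table n).any (okEntry n m)

def okAll (n : ℕ) : Bool := (List.range (2 ^ bits n)).all (okOne n)

theorem okAll_true : ∀ n, 1 ≤ n → n ≤ 7 → okAll n = true := by
  intro n h1 h7
  interval_cases n <;> decide +kernel


end Cls

end P183
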