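import Vale.Agent.P183.Tables1
import Vale.Agent.P183.Tables2
import Vale.Agent.P183.AddTop
import Vale.Agent.P183.Basic
import Vale.Agent.P183.Dual
import Vale.Agent.P183.L221
import Vale.Agent.P183.SL64
import Vale.Agent.P183.Ear22
import Vale.Agent.P183.Ear9

/-! # P183: all codes with at most seven elements are representable (generated) -/

namespace P183

theorem r1_0 : RepCode 1 [] :=
  Chk.check1_sound 1 1 [] [0x0] [] (by decide +kernel)

theorem r2_0 : RepCode 2 [] :=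
  (RepCode.addTop (rel' := []) r1_0 (by decide +kernel) (by decide +kernel)).perm
    (⟨![0, 1], ![0, 1], by decide, by decide⟩ : Equiv.Perm (Fin 2)) (by decide +kernel)

theorem r3_0 : RepCode 3 [] :=
  (RepCode.addTop (rel' := []) r2_0 (by decide +kernel) (by decide +kernel)).perm
    (⟨![0, 1, 2], ![0, 1, 2], by decide, by decide⟩ : Equiv.Perm (Fin 3)) (by decide +kernel)

theorem r4_1 : RepCode 4 [(1,2)] :=
  (RepCode.addTop (rel' := [(1,2)]) r3_0 (by decide +kernel) (by decide +kernel)).perm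
    (⟨![0, 1, 2, 3], ![0, 1, 2, 3], by decide, by decide⟩ : Equiv.Perm (Fin 4)) (by decide +kernel)

theorem r5_2 : RepCode 5 [(1,2), (1,3)] :=
  (RepCode.addBot (rel' := [(1,2), (1,3)]) r4_0 (by decide +kernel) (by decide +kernel)).perm
    (⟨![0, 1, 2, 3, 4], ![0, 1, 2, 3, 4], by decide, by decide⟩ : Equiv.Perm (Fin 5)) (by decide +kernel)

theorem r5_3 : RepCode 5 [(1,2), (3,2)] :=
  (RepCode.addTop (rel' := [(1,3), (2,3)]) r4_0 (by decide +kernel) (by decide +kernel)).perm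
    (⟨![0, 1, 3, 2, 4], ![0, 1, 3, 2, 4], by decide, by decide⟩ : Equiv.Perm (Fin 5)) (by decide +kernel)

theorem r5_4 : RepCode 5 [(1,2), (1,3), (2,3)] :=
  (RepCode.addTop (rel' := [(1,2), (1,3), (2,3)]) r4_1 (by decide +kernel) (by decide +kernel)).perm
    (⟨![0, 1, 2, 3, 4], ![0, 1, 2, 3, 4], by decide, by decide⟩ : Equiv.Perm (Fin 5)) (by decide +kernel)

theorem r6_2 : RepCode 6 [(1,2), (1,3)] :=
  (RepCode.dual (rel' := [(3,4), (3,2)]) r6_4 (by decide +kernel)).perm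
    (⟨![0, 4, 2, 1, 3, 5], ![0, 3, 2, 4, 1, 5], by decide, by decide⟩ : Equiv.Perm (Fin 6)) (by decide +kernel)

theorem r6_3 : RepCode 6 [(1,2), (1,3), (1,4)] :=
  (RepCode.addBot (rel' := [(1,2), (1,3), (1,4)]) r5_0 (by decide +kernel) (by decide +kernel)).perm
    (⟨![0, 1, 2, 3, 4, 5], ![0, 1, 2, 3, 4, 5], by decide, by decide⟩ : Equiv.Perm (Fin 6)) (by decide +kernel)

theorem r6_8 : RepCode 6 [(1,2), (1,3), (1,4), (2,3)] :=
  (RepCode.addBot (rel' := [(2,3), (1,2), (1,3), (1,4)]) r5_1 (by decide +kernel) (by decide +kernel)).perm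
    (⟨![0, 1, 2, 3, 4, 5], ![0, 1, 2, 3, 4, 5], by decide, by decide⟩ : Equiv.Perm (Fin 6)) (by decide +kernel)

theorem r6_9 : RepCode 6 [(1,2), (1,3), (1,4), (2,3), (2,4)] :=
  (RepCode.addBot (rel' := [(2,3), (2,4), (1,2), (1,3), (1,4)]) r5_2 (by decide +kernel) (by decide +kernel)).perm
    (⟨![0, 1, 2, 3, 4, 5], ![0, 1, 2, 3, 4, 5], by decide, by decide⟩ : Equiv.Perm (Fin 6)) (by decide +kernel)

theorem r6_10 : RepCode 6 [(1,2), (3,2), (4,2)] :=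
  (RepCode.addTop (rel' := [(1,4), (2,4), (3,4)]) r5_0 (by decide +kernel) (by decide +kernel)).perm
    (⟨![0, 1, 3, 4, 2, 5], ![0, 1, 4, 2, 3, 5], by decide, by decide⟩ : Equiv.Perm (Fin 6)) (by decide +kernel)

theorem r6_11 : RepCode 6 [(1,2), (1,3), (2,3), (4,3)] :=
  (RepCode.addTop (rel' := [(1,2), (1,4), (2,4), (3,4)]) r5_1 (by decide +kernel) (by decide +kernel)).perm
    (⟨![0, 1, 2, 4, 3, 5], ![0, 1, 2, 4, 3, 5], by decide, by decide⟩ : Equiv.Perm (Fin 6)) (by decide +kernel)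

theorem r6_12 : RepCode 6 [(1,2), (1,3), (1,4), (2,3), (4,3)] :=
  (RepCode.addTop (rel' := [(1,2), (1,3), (1,4), (2,4), (3,4)]) r5_2 (by decide +kernel) (by decide +kernel)).perm
    (⟨![0, 1, 2, 4, 3, 5], ![0, 1, 2, 4, 3, 5], by decide, by decide⟩ : Equiv.Perm (Fin 6)) (by decide +kernel)

theorem r6_13 : RepCode 6 [(1,2), (1,3), (2,3), (4,2), (4,3)] :=
  (RepCode.addTop (rel' := [(1,2), (3,2), (1,4), (2,4), (3,4)]) r5_3 (by decide +kernel) (by decide +kernel)).perm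
    (⟨![0, 1, 2, 4, 3, 5], ![0, 1, 2, 4, 3, 5], by decide, by decide⟩ : Equiv.Perm (Fin 6)) (by decide +kernel)

theorem r6_14 : RepCode 6 [(1,2), (1,3), (1,4), (2,3), (2,4), (3,4)] :=
  (RepCode.addTop (rel' := [(1,2), (1,3), (2,3), (1,4), (2,4), (3,4)]) r5_4 (by decide +kernel) (by decide +kernel)).perm
    (⟨![0, 1, 2, 3, 4, 5], ![0, 1, 2, 3, 4, 5], by decide, by decide⟩ : Equiv.Perm (Fin 6)) (by decide +kernel)

theorem r7_2 : RepCode 7 [(1,2), (1,3)] :=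
  (RepCode.dual (rel' := [(4,5), (4,3)]) r7_5 (by decide +kernel)).perm
    (⟨![0, 4, 5, 2, 1, 3, 6], ![0, 4, 3, 5, 1, 2, 6], by decide, by decide⟩ : Equiv.Perm (Fin 7)) (by decide +kernel)

theorem r7_3 : RepCode 7 [(1,2), (1,3), (1,4)] :=
  (RepCode.dual (rel' := [(4,5), (4,3), (4,2)]) r7_17 (by decide +kernel)).perm
    (⟨![0, 5, 2, 3, 1, 4, 6], ![0, 4, 2, 3, 5, 1, 6], by decide, by decide⟩ : Equiv.Perm (Fin 7)) (by decide +kernel)

theorem r7_4 : RepCode 7 [(1,2), (1,3), (1,4), (1,5)] :=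
  (RepCode.addBot (rel' := [(1,2), (1,3), (1,4), (1,5)]) r6_0 (by decide +kernel) (by decide +kernel)).perm
    (⟨![0, 1, 2, 3, 4, 5, 6], ![0, 1, 2, 3, 4, 5, 6], by decide, by decide⟩ : Equiv.Perm (Fin 7)) (by decide +kernel)

theorem r7_10 : RepCode 7 [(1,2), (1,3), (4,5)] :=
  (RepCode.dual (rel' := [(4,5), (4,3), (1,2)]) r7_20 (by decide +kernel)).perm
    (⟨![0, 4, 5, 2, 1, 3, 6], ![0, 4, 3, 5, 1, 2, 6], by decide, by decide⟩ : Equiv.Perm (Fin 7)) (by decide +kernel)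

theorem r7_12 : RepCode 7 [(1,2), (1,3), (1,4), (1,5), (2,3)] :=
  (RepCode.addBot (rel' := [(2,3), (1,2), (1,3), (1,4), (1,5)]) r6_1 (by decide +kernel) (by decide +kernel)).perm
    (⟨![0, 1, 2, 3, 4, 5, 6], ![0, 1, 2, 3, 4, 5, 6], by decide, by decide⟩ : Equiv.Perm (Fin 7)) (by decide +kernel)

theorem r7_13 : RepCode 7 [(1,2), (1,3), (1,4), (2,3), (2,4)] :=
  (RepCode.dual (rel' := [(4,5), (3,5), (3,4), (4,2), (3,2)]) r7_24 (by decide +kernel)).perm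
    (⟨![0, 5, 3, 1, 2, 4, 6], ![0, 3, 4, 2, 5, 1, 6], by decide, by decide⟩ : Equiv.Perm (Fin 7)) (by decide +kernel)

theorem r7_15 : RepCode 7 [(1,2), (1,3), (1,4), (1,5), (2,3), (2,4)] :=
  (RepCode.addBot (rel' := [(2,3), (2,4), (1,2), (1,3), (1,4), (1,5)]) r6_2 (by decide +kernel) (by decide +kernel)).perm
    (⟨![0, 1, 2, 3, 4, 5, 6], ![0, 1, 2, 3, 4, 5, 6], by decide, by decide⟩ : Equiv.Perm (Fin 7)) (by decide +kernel)

theorem r7_16 : RepCode 7 [(1,2), (1,3), (1,4), (1,5), (2,3), (2,4), (2,5)] :=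
  (RepCode.addBot (rel' := [(2,3), (2,4), (2,5), (1,2), (1,3), (1,4), (1,5)]) r6_3 (by decide +kernel) (by decide +kernel)).perm
    (⟨![0, 1, 2, 3, 4, 5, 6], ![0, 1, 2, 3, 4, 5, 6], by decide, by decide⟩ : Equiv.Perm (Fin 7)) (by decide +kernel)

theorem r7_18 : RepCode 7 [(1,2), (1,3), (2,3), (4,3)] :=
  (RepCode.dual (rel' := [(4,5), (3,5), (2,5), (3,4)]) ear9 (by decide +kernel)).perm
    (⟨![0, 5, 4, 1, 2, 3, 6], ![0, 3, 4, 5, 2, 1, 6], by decide, by decide⟩ : Equiv.Perm (Fin 7)) (by decide +kernel)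

theorem r7_23 : RepCode 7 [(1,2), (1,3), (1,4), (1,5), (2,3), (4,3)] :=
  (RepCode.addBot (rel' := [(2,3), (4,3), (1,2), (1,3), (1,4), (1,5)]) r6_4 (by decide +kernel) (by decide +kernel)).perm
    (⟨![0, 1, 2, 3, 4, 5, 6], ![0, 1, 2, 3, 4, 5, 6], by decide, by decide⟩ : Equiv.Perm (Fin 7)) (by decide +kernel)

theorem r7_29 : RepCode 7 [(1,2), (1,3), (1,4), (1,5), (2,3), (2,4), (3,4)] :=
  (RepCode.addBot (rel' := [(2,3), (2,4), (3,4), (1,2), (1,3), (1,4), (1,5)]) r6_5 (by decide +kernel) (by decide +kernel)).perm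
    (⟨![0, 1, 2, 3, 4, 5, 6], ![0, 1, 2, 3, 4, 5, 6], by decide, by decide⟩ : Equiv.Perm (Fin 7)) (by decide +kernel)

theorem r7_32 : RepCode 7 [(1,2), (1,3), (1,4), (1,5), (2,3), (4,5)] :=
  (RepCode.addBot (rel' := [(2,3), (4,5), (1,2), (1,3), (1,4), (1,5)]) r6_6 (by decide +kernel) (by decide +kernel)).perm
    (⟨![0, 1, 2, 3, 4, 5, 6], ![0, 1, 2, 3, 4, 5, 6], by decide, by decide⟩ : Equiv.Perm (Fin 7)) (by decide +kernel)

theorem r7_34 : RepCode 7 [(1,2), (1,3), (1,4), (1,5), (2,3), (2,4), (5,3)] :=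
  (RepCode.addBot (rel' := [(2,3), (2,4), (5,3), (1,2), (1,3), (1,4), (1,5)]) r6_7 (by decide +kernel) (by decide +kernel)).perm
    (⟨![0, 1, 2, 3, 4, 5, 6], ![0, 1, 2, 3, 4, 5, 6], by decide, by decide⟩ : Equiv.Perm (Fin 7)) (by decide +kernel)

theorem r7_35 : RepCode 7 [(1,2), (1,3), (1,4), (1,5), (2,3), (2,4), (2,5), (3,4)] :=
  (RepCode.addBot (rel' := [(2,3), (2,4), (2,5), (3,4), (1,2), (1,3), (1,4), (1,5)]) r6_8 (by decide +kernel) (by decide +kernel)).perm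
    (⟨![0, 1, 2, 3, 4, 5, 6], ![0, 1, 2, 3, 4, 5, 6], by decide, by decide⟩ : Equiv.Perm (Fin 7)) (by decide +kernel)

theorem r7_37 : RepCode 7 [(1,2), (1,3), (1,4), (1,5), (2,3), (2,4), (2,5), (3,4), (3,5)] :=
  (RepCode.addBot (rel' := [(2,3), (2,4), (2,5), (3,4), (3,5), (1,2), (1,3), (1,4), (1,5)]) r6_9 (by decide +kernel) (by decide +kernel)).perm
    (⟨![0, 1, 2, 3, 4, 5, 6], ![0, 1, 2, 3, 4, 5, 6], by decide, by decide⟩ : Equiv.Perm (Fin 7)) (by decide +kernel)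

theorem r7_38 : RepCode 7 [(1,2), (3,2), (4,2), (5,2)] :=
  (RepCode.addTop (rel' := [(1,5), (2,5), (3,5), (4,5)]) r6_0 (by decide +kernel) (by decide +kernel)).perm
    (⟨![0, 1, 3, 4, 5, 2, 6], ![0, 1, 5, 2, 3, 4, 6], by decide, by decide⟩ : Equiv.Perm (Fin 7)) (by decide +kernel)

theorem r7_39 : RepCode 7 [(1,2), (1,3), (2,3), (4,3), (5,3)] :=
  (RepCode.addTop (rel' := [(1,2), (1,5), (2,5), (3,5), (4,5)]) r6_1 (by decide +kernel) (by decide +kernel)).perm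
    (⟨![0, 1, 2, 4, 5, 3, 6], ![0, 1, 2, 5, 3, 4, 6], by decide, by decide⟩ : Equiv.Perm (Fin 7)) (by decide +kernel)

theorem r7_40 : RepCode 7 [(1,2), (1,3), (1,4), (2,3), (4,3), (5,3)] :=
  (RepCode.addTop (rel' := [(1,2), (1,3), (1,5), (2,5), (3,5), (4,5)]) r6_2 (by decide +kernel) (by decide +kernel)).perm
    (⟨![0, 1, 2, 4, 5, 3, 6], ![0, 1, 2, 5, 3, 4, 6], by decide, by decide⟩ : Equiv.Perm (Fin 7)) (by decide +kernel)

theorem r7_41 : RepCode 7 [(1,2), (1,3), (1,4), (1,5), (2,3), (4,3), (5,3)] :=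
  (RepCode.addTop (rel' := [(1,2), (1,3), (1,4), (1,5), (2,5), (3,5), (4,5)]) r6_3 (by decide +kernel) (by decide +kernel)).perm
    (⟨![0, 1, 2, 4, 5, 3, 6], ![0, 1, 2, 5, 3, 4, 6], by decide, by decide⟩ : Equiv.Perm (Fin 7)) (by decide +kernel)

theorem r7_42 : RepCode 7 [(1,2), (1,3), (2,3), (4,2), (4,3), (5,3)] :=
  (RepCode.addTop (rel' := [(1,2), (3,2), (1,5), (2,5), (3,5), (4,5)]) r6_4 (by decide +kernel) (by decide +kernel)).perm
    (⟨![0, 1, 2, 4, 5, 3, 6], ![0, 1, 2, 5, 3, 4, 6], by decide, by decide⟩ : Equiv.Perm (Fin 7)) (by decide +kernel)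

theorem r7_43 : RepCode 7 [(1,2), (1,3), (1,4), (2,3), (2,4), (3,4), (5,4)] :=
  (RepCode.addTop (rel' := [(1,2), (1,3), (2,3), (1,5), (2,5), (3,5), (4,5)]) r6_5 (by decide +kernel) (by decide +kernel)).perm
    (⟨![0, 1, 2, 3, 5, 4, 6], ![0, 1, 2, 3, 5, 4, 6], by decide, by decide⟩ : Equiv.Perm (Fin 7)) (by decide +kernel)

theorem r7_44 : RepCode 7 [(1,2), (1,3), (2,3), (4,3), (4,5), (5,3)] :=
  (RepCode.addTop (rel' := [(1,2), (3,4), (1,5), (2,5), (3,5), (4,5)]) r6_6 (by decide +kernel) (by decide +kernel)).perm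
    (⟨![0, 1, 2, 4, 5, 3, 6], ![0, 1, 2, 5, 3, 4, 6], by decide, by decide⟩ : Equiv.Perm (Fin 7)) (by decide +kernel)

theorem r7_45 : RepCode 7 [(1,2), (1,3), (1,4), (2,3), (4,3), (5,2), (5,3)] :=
  (RepCode.addTop (rel' := [(1,2), (1,3), (4,2), (1,5), (2,5), (3,5), (4,5)]) r6_7 (by decide +kernel) (by decide +kernel)).perm
    (⟨![0, 1, 2, 4, 5, 3, 6], ![0, 1, 2, 5, 3, 4, 6], by decide, by decide⟩ : Equiv.Perm (Fin 7)) (by decide +kernel)

theorem r7_46 : RepCode 7 [(1,2), (1,3), (1,4), (1,5), (2,3), (2,4), (3,4), (5,4)] :=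
  (RepCode.addTop (rel' := [(1,2), (1,3), (1,4), (2,3), (1,5), (2,5), (3,5), (4,5)]) r6_8 (by decide +kernel) (by decide +kernel)).perm
    (⟨![0, 1, 2, 3, 5, 4, 6], ![0, 1, 2, 3, 5, 4, 6], by decide, by decide⟩ : Equiv.Perm (Fin 7)) (by decide +kernel)

theorem r7_47 : RepCode 7 [(1,2), (1,3), (1,4), (1,5), (2,3), (2,4), (2,5), (3,4), (5,4)] :=
  (RepCode.addTop (rel' := [(1,2), (1,3), (1,4), (2,3), (2,4), (1,5), (2,5), (3,5), (4,5)]) r6_9 (by decide +kernel) (by decide +kernel)).perm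
    (⟨![0, 1, 2, 3, 5, 4, 6], ![0, 1, 2, 3, 5, 4, 6], by decide, by decide⟩ : Equiv.Perm (Fin 7)) (by decide +kernel)

theorem r7_48 : RepCode 7 [(1,2), (1,3), (2,3), (4,2), (4,3), (5,2), (5,3)] :=
  (RepCode.addTop (rel' := [(1,2), (3,2), (4,2), (1,5), (2,5), (3,5), (4,5)]) r6_10 (by decide +kernel) (by decide +kernel)).perm
    (⟨![0, 1, 2, 4, 5, 3, 6], ![0, 1, 2, 5, 3, 4, 6], by decide, by decide⟩ : Equiv.Perm (Fin 7)) (by decide +kernel)

theorem r7_49 : RepCode 7 [(1,2), (1,3), (1,4), (2,3), (2,4), (3,4), (5,3), (5,4)] :=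
  (RepCode.addTop (rel' := [(1,2), (1,3), (2,3), (4,3), (1,5), (2,5), (3,5), (4,5)]) r6_11 (by decide +kernel) (by decide +kernel)).perm
    (⟨![0, 1, 2, 3, 5, 4, 6], ![0, 1, 2, 3, 5, 4, 6], by decide, by decide⟩ : Equiv.Perm (Fin 7)) (by decide +kernel)

theorem r7_50 : RepCode 7 [(1,2), (1,3), (1,4), (1,5), (2,3), (2,4), (3,4), (5,3), (5,4)] :=
  (RepCode.addTop (rel' := [(1,2), (1,3), (1,4), (2,3), (4,3), (1,5), (2,5), (3,5), (4,5)]) r6_12 (by decide +kernel) (by decide +kernel)).perm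
    (⟨![0, 1, 2, 3, 5, 4, 6], ![0, 1, 2, 3, 5, 4, 6], by decide, by decide⟩ : Equiv.Perm (Fin 7)) (by decide +kernel)

theorem r7_51 : RepCode 7 [(1,2), (1,3), (1,4), (2,3), (2,4), (3,4), (5,2), (5,3), (5,4)] :=
  (RepCode.addTop (rel' := [(1,2), (1,3), (2,3), (4,2), (4,3), (1,5), (2,5), (3,5), (4,5)]) r6_13 (by decide +kernel) (by decide +kernel)).perm
    (⟨![0, 1, 2, 3, 5, 4, 6], ![0, 1, 2, 3, 5, 4, 6], by decide, by decide⟩ : Equiv.Perm (Fin 7)) (by decide +kernel)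

theorem r7_52 : RepCode 7 [(1,2), (1,3), (1,4), (1,5), (2,3), (2,4), (2,5), (3,4), (3,5), (4,5)] :=
  (RepCode.addTop (rel' := [(1,2), (1,3), (1,4), (2,3), (2,4), (3,4), (1,5), (2,5), (3,5), (4,5)]) r6_14 (by decide +kernel) (by decide +kernel)).perm
    (⟨![0, 1, 2, 3, 4, 5, 6], ![0, 1, 2, 3, 4, 5, 6], by decide, by decide⟩ : Equiv.Perm (Fin 7)) (by decide +kernel)

end P183
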